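import Vale.Agent.P234.Fin
import Vale.Agent.P234.S
import Vale.Agent.P234.T
import Vale.Agent.P234.D
import Vale.Agent.P234.N1
import Vale.Agent.P234.N2
import Vale.Agent.P234.P
import Vale.Agent.P234.Br
import Vale.Agent.P234.Y
import Vale.Agent.P234.H
import Vale.Agent.P234.K
import Vale.Agent.P234.F
import Vale.Agent.P234.O
import Vale.Agent.P234.Q
import Vale.Agent.P234.L
import Vale.Agent.P234.Z

open scoped Manifold ContDiff
open Vale.Agent.P255 Vale.Agent.P234

theorem Vale.Agent.Results.P234.ConvexInjectivity.result (n : ℕ) (hn : 2 ≤ n) (M : Type)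
    [TopologicalSpace M] [ChartedSpace (Eu n) M] [IsManifold 𝓘(ℝ, Eu n) ∞ M] [T2Space M]
    [CompactSpace M] [ConnectedSpace M] (g : Metric (Eu n) M) (h : WeakMTW g) :
    ConvexInjDoms g :=
  letI : Dim := ⟨n, lt_of_lt_of_le two_pos hn⟩
  P234.fin P234.dStmt (convex_all P234.sStmt P234.tStmt P234.n1Stmt P234.n2Stmt P234.pStmt
    P234.brStmt P234.yStmt P234.hStmt P234.kStmt P234.fStmt P234.oStmt'
    (P234.lStmt P234.qStmt) P234.zStmt) M g h
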